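import Mathlib.Data.ZMod.Basic
import Mathlib.Algebra.Field.ZMod
import Mathlib.Algebra.Polynomial.Roots
import Mathlib.Algebra.Order.BigOperators.Group.Finset
import Mathlib.Tactic

set_option autoImplicit false

/-!
P042.SmoothModuli, row COUNT: lifts of the nonzero `k`-th powers modulo `p`.
-/

namespace Vale.Agent.P042.H431

open Finset

theorem count_lifts {p k j : ℕ} (hp : p.Prime) (hk : 1 ≤ k) (hj : 1 ≤ j) :
    ∃ T : Finset (ZMod (p ^ j)), (0 : ZMod (p ^ j)) ∉ T ∧
      (∀ z : ℤ, (z : ZMod (p ^ j)) ∈ T → (z : ZMod p) ≠ 0 ∧ ∃ n : ZMod p, (z : ZMod p) = n ^ k) ∧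
      p ^ (j - 1) * (p - 1) ≤ k * T.card := by
  classical
  have : Fact p.Prime := ⟨hp⟩
  have : NeZero (p ^ j) := ⟨pow_ne_zero _ hp.pos.ne'⟩
  have hpj : p * p ^ (j - 1) = p ^ j := by
    rw [← pow_succ', Nat.sub_add_cancel hj]
  set U : Finset (ZMod p) := Finset.univ.filter (fun x => x ≠ 0) with hU
  set D : Finset (ZMod p) := U.image (fun x => x ^ k) with hD
  have hUc : U.card = p - 1 := by
    have h1 : U = Finset.univ.erase (0 : ZMod p) := by
      ext x; simp [hU]
    rw [h1, Finset.card_erase_of_mem (Finset.mem_univ _), Finset.card_univ, ZMod.card]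
  have hDc : p - 1 ≤ k * D.card := by
    rw [← hUc]
    apply Finset.card_le_mul_card_image
    intro w _
    have hsub : U.filter (fun x => x ^ k = w) ⊆ (Polynomial.nthRoots k w).toFinset := by
      intro x hx
      rw [Multiset.mem_toFinset, Polynomial.mem_nthRoots hk]
      exact (Finset.mem_filter.1 hx).2
    calc (U.filter (fun x => x ^ k = w)).card ≤ (Polynomial.nthRoots k w).toFinset.card :=
          Finset.card_le_card hsub
      _ ≤ Multiset.card (Polynomial.nthRoots k w) := Multiset.toFinset_card_le _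
      _ ≤ k := Polynomial.card_nthRoots k w
  have hD0 : ∀ w ∈ D, w ≠ 0 ∧ ∃ n : ZMod p, w = n ^ k := by
    intro w hw
    obtain ⟨x, hx, rfl⟩ := Finset.mem_image.1 hw
    exact ⟨pow_ne_zero _ (Finset.mem_filter.1 hx).2, x, rfl⟩
  let f : ZMod p × ℕ → ZMod (p ^ j) := fun y => ((y.1.val + p * y.2 : ℕ) : ZMod (p ^ j))
  have hlt : ∀ y ∈ D ×ˢ Finset.range (p ^ (j - 1)), y.1.val + p * y.2 < p ^ j := by
    intro y hy
    rw [Finset.mem_product, Finset.mem_range] at hy
    have h1 := ZMod.val_lt y.1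
    have h2 : y.2 + 1 ≤ p ^ (j - 1) := hy.2
    calc y.1.val + p * y.2 < p + p * y.2 := Nat.add_lt_add_right h1 _
      _ = p * (y.2 + 1) := by ring
      _ ≤ p * p ^ (j - 1) := Nat.mul_le_mul_left p h2
      _ = p ^ j := hpj
  have hinj : Set.InjOn f (D ×ˢ Finset.range (p ^ (j - 1)) : Finset (ZMod p × ℕ)) := by
    intro y hy y' hy' h
    rw [Finset.mem_coe] at hy hy'
    have h1 : y.1.val + p * y.2 = y'.1.val + p * y'.2 := by
      have h2 := congrArg ZMod.val h
      simp only [f] at h2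
      rwa [ZMod.val_natCast, ZMod.val_natCast, Nat.mod_eq_of_lt (hlt y hy),
        Nat.mod_eq_of_lt (hlt y' hy')] at h2
    have h3 : y.1.val = y'.1.val := by
      have h4 := congrArg (fun t => t % p) h1
      simp only [Nat.add_mul_mod_self_left] at h4
      rwa [Nat.mod_eq_of_lt (ZMod.val_lt _), Nat.mod_eq_of_lt (ZMod.val_lt _)] at h4
    have h5 : y.2 = y'.2 := by
      have h6 : p * y.2 = p * y'.2 := by omega
      exact Nat.eq_of_mul_eq_mul_left hp.pos h6
    exact Prod.ext (ZMod.val_injective p h3) h5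
  refine ⟨(D ×ˢ Finset.range (p ^ (j - 1))).image f, ?_, ?_, ?_⟩
  · intro h0
    obtain ⟨y, hy, hy0⟩ := Finset.mem_image.1 h0
    have h1 := congrArg ZMod.val hy0
    simp only [f] at h1
    rw [ZMod.val_natCast, Nat.mod_eq_of_lt (hlt y hy), ZMod.val_zero] at h1
    have h2 : y.1.val = 0 := by omega
    exact (hD0 y.1 (Finset.mem_product.1 hy).1).1 ((ZMod.val_eq_zero _).1 h2)
  · intro z hz
    obtain ⟨y, hy, hyz⟩ := Finset.mem_image.1 hz
    have hdvd : p ∣ p ^ j := dvd_pow_self p (by omega)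
    have h1 := congrArg (ZMod.castHom hdvd (ZMod p)) hyz
    simp only [f] at h1
    rw [map_natCast, map_intCast] at h1
    have h2 : (z : ZMod p) = y.1 := by
      rw [← h1, Nat.cast_add, Nat.cast_mul, CharP.cast_eq_zero (ZMod p) p, zero_mul, add_zero,
        ZMod.natCast_zmod_val]
    obtain ⟨h3, n, h4⟩ := hD0 y.1 (Finset.mem_product.1 hy).1
    rw [h2]
    exact ⟨h3, n, h4⟩
  · rw [Finset.card_image_of_injOn hinj, Finset.card_product, Finset.card_range]
    calc p ^ (j - 1) * (p - 1) ≤ p ^ (j - 1) * (k * D.card) := Nat.mul_le_mul_left _ hDc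
      _ = k * (D.card * p ^ (j - 1)) := by ring

end Vale.Agent.P042.H431
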